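import Vale.Agent.P322.Reduce
import Vale.Agent.P322.Omega

/-!
# P322: the ray argument (helper23)

Weights `Gp α β m = (1-m²)(1+α m²-β m⁴)`; `(α,β) = (0,0)` is the basic weight `1-m²`,
`(α,β) = (1-1/(2 log 2), 1/10)` is the weight for the full conjecture.
-/
namespace P322

/-- the weight -/
noncomputable def Gp (α β m : ℝ) : ℝ := (1 - m ^ 2) * (1 + α * m ^ 2 - β * m ^ 4)

/-- `Gp / (1-m)` -/
noncomputable def Gam (α β m : ℝ) : ℝ := (1 + m) * (1 + α * m ^ 2 - β * m ^ 4)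

/-- derivative of `Gam` -/
noncomputable def GamD (α β m : ℝ) : ℝ :=
  1 + 2 * α * m + 3 * α * m ^ 2 - 4 * β * m ^ 3 - 5 * β * m ^ 4

/-- `Gbar (Gp α β) m (σ (1-m)) / (1-m)` -/
noncomputable def GamB (α β σ m : ℝ) : ℝ :=
  ((1 - σ) * Gam α β (m + σ * (1 - m)) + (1 + σ) * Gam α β (m - σ * (1 - m))) / 2

/-- derivative of `GamB` in `m` -/
noncomputable def GamBD (α β σ m : ℝ) : ℝ :=
  ((1 - σ) ^ 2 * GamD α β (m + σ * (1 - m)) + (1 + σ) ^ 2 * GamD α β (m - σ * (1 - m))) / 2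

/-- `R - x R'` -/
noncomputable def PP (x : ℝ) : ℝ := RR x + x * XX x

/-- the two-point quantity -/
noncomputable def EEg (α β m d H : ℝ) : ℝ :=
  2 * (hh m - (hh (m + d) + hh (m - d)) / 2)
    + Gp α β m * RR (H / Gp α β m) - Gbar (Gp α β) m d * RR (H / Gbar (Gp α β) m d)

/-- the two-point quantity along a ray from the corner, divided by `1-m` -/
noncomputable def EEr (α β σ η m : ℝ) : ℝ :=
  2 * (hh m - (hh (m + σ * (1 - m)) + hh (m - σ * (1 - m))) / 2) / (1 - m)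
    + Gam α β m * RR (η / Gam α β m) - GamB α β σ m * RR (η / GamB α β σ m)

/-- polynomial and elementary facts needed about the weight -/
structure RayOK (α β : ℝ) : Prop where
  b0 : 0 ≤ β
  ba : β ≤ α
  a1 : α < 1
  gamD_pos : ∀ m ∈ Set.Ico (0 : ℝ) 1, 0 < GamD α β m
  gamBD_ge : ∀ m ∈ Set.Ico (0 : ℝ) 1, ∀ σ ∈ Set.Ioo (0 : ℝ) 1, GamD α β m ≤ GamBD α β σ m
  gamB_le : ∀ m ∈ Set.Ico (0 : ℝ) 1, ∀ σ ∈ Set.Ioo (0 : ℝ) 1, GamB α β σ m ≤ Gam α β m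
  gamB_pos : ∀ m ∈ Set.Ico (0 : ℝ) 1, ∀ σ ∈ Set.Ioo (0 : ℝ) 1, 0 < GamB α β σ m
  p2 : ∀ m ∈ Set.Ico (0 : ℝ) 1, ∀ σ ∈ Set.Ioo (0 : ℝ) 1,
    2 / 3 * (1 - m) ^ 2 * GamD α β m * Real.log (Gam α β m / GamB α β σ m)
      ≤ -Real.log (1 - σ ^ 2 * ((1 - m) / (1 + m)) ^ 2)
  base : ∀ m ∈ Set.Ioo (-1 : ℝ) 1, Gp α β m * Real.log 2 ≤ hh m

end P322
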