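import Vale.Agent.P322.RayH.Defs
namespace P322

theorem delta_hh_eq {u : ℝ} (hu : u ∈ Set.Ioo (-1 : ℝ) 1) :
    hh u = (1 - u) * ath u + (Real.log 2 - Real.log (1 + u)) := by
  have hp : 0 < 1 + u := by linarith [hu.1]
  have hm : 0 < 1 - u := by linarith [hu.2]
  rw [hh_eq hu]
  have e1 : ell u = Real.log 2 - (Real.log (1 - u) + Real.log (1 + u)) / 2 := by
    unfold ell
    rw [show (1 : ℝ) - u ^ 2 = (1 - u) * (1 + u) by ring, Real.log_mul hm.ne' hp.ne']
  have e2 : ath u = (Real.log (1 + u) - Real.log (1 - u)) / 2 := by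
    unfold ath
    rw [Real.log_div hp.ne' hm.ne']
  rw [e1, e2]
  ring

/-- task R2 -/
theorem ray_delta_deriv {σ m : ℝ} (hσ : σ ∈ Set.Ioo (0 : ℝ) 1) (hm : m ∈ Set.Ico (0 : ℝ) 1) :
    HasDerivAt
      (fun m => 2 * (hh m - (hh (m + σ * (1 - m)) + hh (m - σ * (1 - m))) / 2) / (1 - m))
      (Real.log (1 - σ ^ 2 * ((1 - m) / (1 + m)) ^ 2) / (1 - m) ^ 2) m := by
  have hm1 : 0 < 1 - m := by linarith [hm.2]
  have hm2 : 0 < 1 + m := by linarith [hm.1]
  have hs1 : 0 < 1 - σ := by linarith [hσ.2]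
  have hs0 := hσ.1
  have hma : m ∈ Set.Ioo (-1 : ℝ) 1 := ⟨by linarith [hm.1], hm.2⟩
  have ha : m + σ * (1 - m) ∈ Set.Ioo (-1 : ℝ) 1 := by
    have := mul_pos hs0 hm1
    have := mul_pos hs1 hm1
    constructor <;> nlinarith
  have hb : m - σ * (1 - m) ∈ Set.Ioo (-1 : ℝ) 1 := by
    have h1 := mul_pos hs0 hm1
    have h2 := mul_pos hs1 hm1
    have h3 := hm.1
    constructor <;> nlinarith
  have h1m : HasDerivAt (fun m : ℝ => 1 - m) (-1) m := (hasDerivAt_id' m).const_sub 1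
  have hA : HasDerivAt (fun m : ℝ => m + σ * (1 - m)) (1 + σ * -1) m :=
    (hasDerivAt_id' m).add (h1m.const_mul σ)
  have hB : HasDerivAt (fun m : ℝ => m - σ * (1 - m)) (1 - σ * -1) m :=
    (hasDerivAt_id' m).sub (h1m.const_mul σ)
  have hhA := (hasDerivAt_hh ha).comp m hA
  have hhB := (hasDerivAt_hh hb).comp m hB
  have h := (((hasDerivAt_hh hma).sub ((hhA.add hhB).div_const 2)).const_mul 2).div h1m hm1.ne'
  refine HasDerivAt.congr_deriv h ?_
  simp only [Pi.add_apply, Pi.sub_apply, Function.comp_apply]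
  have hpa : 0 < 1 + (m + σ * (1 - m)) := by linarith [ha.1]
  have hpb : 0 < 1 + (m - σ * (1 - m)) := by linarith [hb.1]
  have hlog : Real.log (1 - σ ^ 2 * ((1 - m) / (1 + m)) ^ 2) =
      Real.log (1 + (m + σ * (1 - m))) + Real.log (1 + (m - σ * (1 - m))) -
        2 * Real.log (1 + m) := by
    have e : 1 - σ ^ 2 * ((1 - m) / (1 + m)) ^ 2 =
        (1 + (m + σ * (1 - m))) * (1 + (m - σ * (1 - m))) / (1 + m) ^ 2 := by
      field_simp
      ring
    rw [e, Real.log_div (mul_pos hpa hpb).ne' (by positivity), Real.log_mul hpa.ne' hpb.ne',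
      Real.log_pow]
    push_cast
    ring
  rw [hlog, delta_hh_eq hma, delta_hh_eq ha, delta_hh_eq hb]
  congr 1
  ring

end P322
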