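import Vale.Agent.P322.RayH.P2
namespace P322
/-- task R4: the weight `1-m²` -/
theorem rayOK_zero : RayOK 0 0 := by
  have hGam : ∀ m : ℝ, Gam 0 0 m = 1 + m := by intro m; unfold Gam; ring
  have hGamD : ∀ m : ℝ, GamD 0 0 m = 1 := by intro m; unfold GamD; ring
  have hGamB : ∀ σ m : ℝ, GamB 0 0 σ m = (1 + m) - σ ^ 2 * (1 - m) := by
    intro σ m; unfold GamB; rw [hGam, hGam]; ring
  have hGamBD : ∀ σ m : ℝ, GamBD 0 0 σ m = 1 + σ ^ 2 := by
    intro σ m; unfold GamBD; rw [hGamD, hGamD]; ring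
  refine ⟨le_refl _, le_refl _, by norm_num, ?_, ?_, ?_, ?_, ?_, ?_⟩
  · intro m _
    rw [hGamD]; norm_num
  · intro m _ σ _
    rw [hGamD, hGamBD]; nlinarith [sq_nonneg σ]
  · intro m hm σ _
    rw [hGam, hGamB]
    have : 0 ≤ σ ^ 2 * (1 - m) := mul_nonneg (sq_nonneg σ) (by linarith [hm.2])
    linarith
  · intro m hm σ hσ
    rw [hGamB]
    have h1 : σ ^ 2 < 1 := by nlinarith [hσ.1, hσ.2]
    have h2 : σ ^ 2 * (1 - m) < 1 * (1 - m) :=
      mul_lt_mul_of_pos_right h1 (by linarith [hm.2])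
    linarith [hm.1]
  · intro m hm σ hσ
    rw [hGamD, hGam, hGamB]
    have h1m : 0 < 1 + m := by linarith [hm.1]
    have h1m' : 0 < 1 - m := by linarith [hm.2]
    set t : ℝ := (1 - m) / (1 + m) with ht
    have ht0 : 0 < t := div_pos h1m' h1m
    have ht1 : t ≤ 1 := by rw [ht, div_le_one h1m]; linarith [hm.1]
    have key := P2_elem hσ ht0 ht1
    have hσ2 : σ ^ 2 < 1 := by nlinarith [hσ.1, hσ.2]
    have hpos : 0 < 1 - σ ^ 2 * t := by nlinarith [sq_nonneg σ]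
    have e1 : (1 + m) / (1 + m - σ ^ 2 * (1 - m)) = (1 - σ ^ 2 * t)⁻¹ := by
      have h3 : 1 + m - σ ^ 2 * (1 - m) = (1 + m) * (1 - σ ^ 2 * t) := by
        rw [ht]; field_simp
      rw [h3]
      field_simp
    rw [e1, Real.log_inv]
    have e2 : (1 - m) ^ 2 = 4 * t ^ 2 / (1 + t) ^ 2 := by
      have h4 : 1 + t = 2 / (1 + m) := by rw [ht]; field_simp; ring
      rw [h4, ht]
      field_simp
      ring
    have hc : 0 < 4 * t ^ 2 / (1 + t) ^ 2 := by positivity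
    have h5 := mul_le_mul_of_nonneg_left key hc.le
    have e3 : 4 * t ^ 2 / (1 + t) ^ 2 * ((1 + t) ^ 2 / (4 * t ^ 2) * -Real.log (1 - σ ^ 2 * t ^ 2))
        = -Real.log (1 - σ ^ 2 * t ^ 2) := by
      field_simp
    rw [e3] at h5
    rw [e2]
    linarith
  · intro m hm
    have h := hh_ge_quad (m := m) ⟨hm.1.le, hm.2.le⟩
    have : Gp 0 0 m = 1 - m ^ 2 := by unfold Gp; ring
    rw [this]
    exact h
end P322
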