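import Vale.Agent.P322.RayH.Glue
import Vale.Agent.P322.RayH.OK0
import Vale.Agent.P322.T1Defs
namespace P322

theorem rayfin_EF_eq (m d H : ℝ) : EF m d H = EEg 0 0 m d H := by
  unfold EF EEg
  have e1 : Gp 0 0 m = 1 - m ^ 2 := by unfold Gp; ring
  have e2 : Gbar (Gp 0 0) m d = 1 - m ^ 2 - d ^ 2 := by unfold Gbar Gp; ring
  rw [e1, e2]

theorem rayProp : RayProp := by
  intro μ m d H hμ hμm hd hmd hH
  have hm1 : 0 < 1 - m := by linarith
  have hμ1 : 0 < 1 - μ := by linarith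
  have hσ : d / (1 - m) ∈ Set.Ioo (0 : ℝ) 1 :=
    ⟨by positivity, by rw [div_lt_one hm1]; linarith⟩
  have hη : 0 < H / (1 - m) := by positivity
  have hanti := ray_antitone rayOK_zero hσ hη
    (show μ ∈ Set.Ico (0 : ℝ) 1 from ⟨hμ, by linarith⟩)
    (show m ∈ Set.Ico (0 : ℝ) 1 from ⟨by linarith, by linarith⟩) hμm
  rw [rayfin_EF_eq, rayfin_EF_eq, EEg_eq_EEr (by linarith : m < 1),
    EEg_eq_EEr (by linarith : μ < 1)]
  have e1 : d * (1 - μ) / (1 - m) / (1 - μ) = d / (1 - m) := by field_simp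
  have e2 : H * (1 - μ) / (1 - m) / (1 - μ) = H / (1 - m) := by field_simp
  rw [e1, e2]
  have e3 : (1 - m) / (1 - μ) * ((1 - μ) * EEr 0 0 (d / (1 - m)) (H / (1 - m)) μ)
      = (1 - m) * EEr 0 0 (d / (1 - m)) (H / (1 - m)) μ := by field_simp
  rw [e3]
  exact mul_le_mul_of_nonneg_left hanti hm1.le

theorem scal0Prop : Scal0Prop := by
  intro d H s hd hd1 hH hHd hs hsH
  have h := zero_bound ⟨hd, hd1⟩ hH hHd hs hsH
  unfold EF
  have e1 : hh (0 - d) = hh d := by rw [← hh_neg]; congr 1; ring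
  have e2 : hh (0 + d) = hh d := by rw [zero_add]
  rw [e1, e2]
  have e3 : (1 - (0 : ℝ) ^ 2) = 1 := by norm_num
  rw [e3, div_one, one_mul]
  have e4 : (hh d + hh d) / 2 = hh d := by ring
  rw [e4]
  exact h

end P322
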