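import Vale.Agent.P322.RayH.PP
namespace P322

theorem zb_deriv {d H t : ℝ} (ht : 0 < t) (hd : 0 < d) (htd : t * d < 1) (hH : 0 < H) :
    HasDerivAt (fun t => (2 * (Real.log 2 - hh (t * d)) + RR (t * H) -
        (1 - (t * d) ^ 2) * RR (t * H / (1 - (t * d) ^ 2))) / t)
      ((-Real.log (1 - (t * d) ^ 2) - PP (t * H) +
        (1 + (t * d) ^ 2) * PP (t * H / (1 - (t * d) ^ 2))) / t ^ 2) t := by
  have htd0 : 0 < t * d := mul_pos ht hd
  have hy : t * d ∈ Set.Ioo (-1 : ℝ) 1 := ⟨by linarith, htd⟩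
  have hg : 0 < 1 - (t * d) ^ 2 := by nlinarith
  have hx : 0 < t * H := mul_pos ht hH
  have h1 : HasDerivAt (fun t => hh (t * d)) (-ath (t * d) * d) t :=
    HasDerivAt.comp (h₂ := hh) (h := fun t => t * d) t (hasDerivAt_hh hy) (hasDerivAt_mul_const d)
  have h2 : HasDerivAt (fun t => RR (t * H)) (-(XX (t * H)) * H) t :=
    HasDerivAt.comp (h₂ := RR) (h := fun t => t * H) t (hasDerivAt_RR hx) (hasDerivAt_mul_const H)
  have h3 : HasDerivAt (fun t => 1 - (t * d) ^ 2) (-(2 * (t * d) * d)) t := by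
    have h : HasDerivAt (fun t => 1 - (t * d) ^ 2) (-(((2 : ℕ) : ℝ) * (t * d) ^ (2 - 1) * d)) t :=
      ((hasDerivAt_mul_const (x := t) d).pow 2).const_sub 1
    refine h.congr_deriv ?_
    norm_num
  have h4 : HasDerivAt (fun t => t * H / (1 - (t * d) ^ 2))
      ((H * (1 - (t * d) ^ 2) - t * H * (-(2 * (t * d) * d))) / (1 - (t * d) ^ 2) ^ 2) t :=
    (hasDerivAt_mul_const H).div h3 hg.ne'
  have h5 : HasDerivAt (fun t => RR (t * H / (1 - (t * d) ^ 2)))
      (-(XX (t * H / (1 - (t * d) ^ 2))) *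
        ((H * (1 - (t * d) ^ 2) - t * H * (-(2 * (t * d) * d))) / (1 - (t * d) ^ 2) ^ 2)) t :=
    HasDerivAt.comp (h₂ := RR) (h := fun t => t * H / (1 - (t * d) ^ 2)) t
      (hasDerivAt_RR (div_pos hx hg)) h4
  have h6 := h3.mul h5
  have h7 := (((h1.const_sub (Real.log 2)).const_mul 2).add h2).sub h6
  have h8 := h7.div (hasDerivAt_id t) ht.ne'
  have hell : hh (t * d) = Real.log 2 - Real.log (1 - (t * d) ^ 2) / 2 - t * d * ath (t * d) := by
    rw [hh_eq hy]
    rfl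
  refine HasDerivAt.congr_deriv h8 ?_
  simp only [Pi.add_apply, Pi.sub_apply, Pi.mul_apply, id, PP]
  rw [hell]
  generalize XX (t * H / (1 - (t * d) ^ 2)) = X1
  generalize RR (t * H / (1 - (t * d) ^ 2)) = R1
  generalize XX (t * H) = X0
  generalize RR (t * H) = R0
  generalize ath (t * d) = A
  generalize Real.log (1 - (t * d) ^ 2) = L
  generalize Real.log 2 = L2
  field_simp
  ring

theorem zb_sd {d H s : ℝ} (hd : d ∈ Set.Ioo (0 : ℝ) 1) (hHd : H ≤ hh d)
    (hs : s ∈ Set.Ioo (0 : ℝ) 1) (hsH : hh s * d = s * H) : d ≤ s := by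
  by_contra hlt
  push Not at hlt
  have h1 : hh d < hh s := hh_strictAntiOn ⟨hs.1.le, hs.2.le⟩ ⟨hd.1.le, hd.2.le⟩ hlt
  have h2 : 0 < hh d := hh_pos ⟨by linarith [hd.1], hd.2⟩
  have h3 : s * H ≤ s * hh d := mul_le_mul_of_nonneg_left hHd hs.1.le
  have h4 : s * hh d ≤ d * hh d := mul_le_mul_of_nonneg_right hlt.le h2.le
  have h5 : d * hh d < d * hh s := mul_lt_mul_of_pos_left h1 hd.1
  linarith

/-- task R6 -/
theorem zero_bound {d H s : ℝ} (hd : d ∈ Set.Ioo (0 : ℝ) 1) (hH : 0 < H) (hHd : H ≤ hh d)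
    (hs : s ∈ Set.Ioo (0 : ℝ) 1) (hsH : hh s * d = s * H) :
    2 * (hh 0 - hh d) + RR H - (1 - d ^ 2) * RR (H / (1 - d ^ 2)) ≤ d * ath s := by
  have hds := zb_sd hd hHd hs hsH
  have hd0 := hd.1
  have hs0 := hs.1
  have h1sd : 1 ≤ s / d := (one_le_div hd0).2 hds
  have hder : ∀ t ∈ Set.Icc 1 (s / d), HasDerivAt (fun t => (2 * (Real.log 2 - hh (t * d)) +
        RR (t * H) - (1 - (t * d) ^ 2) * RR (t * H / (1 - (t * d) ^ 2))) / t)
      ((-Real.log (1 - (t * d) ^ 2) - PP (t * H) +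
        (1 + (t * d) ^ 2) * PP (t * H / (1 - (t * d) ^ 2))) / t ^ 2) t := by
    intro t ht
    have ht0 : 0 < t := lt_of_lt_of_le one_pos ht.1
    have htd : t * d ≤ s := (le_div_iff₀ hd0).1 ht.2
    exact zb_deriv ht0 hd0 (lt_of_le_of_lt htd hs.2) hH
  have hmono : MonotoneOn (fun t => (2 * (Real.log 2 - hh (t * d)) +
        RR (t * H) - (1 - (t * d) ^ 2) * RR (t * H / (1 - (t * d) ^ 2))) / t)
      (Set.Icc 1 (s / d)) := by
    apply monotoneOn_of_deriv_nonneg (convex_Icc 1 (s / d))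
    · intro t ht
      exact (hder t ht).continuousAt.continuousWithinAt
    · intro t ht
      exact (hder t (interior_subset ht)).differentiableAt.differentiableWithinAt
    · intro t ht
      have ht' := interior_subset ht
      rw [(hder t ht').deriv]
      have ht0 : 0 < t := lt_of_lt_of_le one_pos ht'.1
      have htd : t * d ≤ s := (le_div_iff₀ hd0).1 ht'.2
      have htd1 : t * d < 1 := lt_of_le_of_lt htd hs.2
      have htd0 : 0 < t * d := mul_pos ht0 hd0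
      have hg : 0 < 1 - (t * d) ^ 2 := by nlinarith
      have hg1 : 1 - (t * d) ^ 2 ≤ 1 := by nlinarith
      have hx : 0 < t * H := mul_pos ht0 hH
      have hxy : t * H ≤ t * H / (1 - (t * d) ^ 2) := by
        rw [le_div_iff₀ hg]
        nlinarith
      have hP1 := PP_sub_le hx hxy
      have hP2 := PP_nonneg (div_pos hx hg)
      have hlog : Real.log (t * H / (1 - (t * d) ^ 2) / (t * H)) = -Real.log (1 - (t * d) ^ 2) := by
        rw [← Real.log_inv]
        congr 1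
        field_simp
      rw [hlog] at hP1
      have hl : Real.log (1 - (t * d) ^ 2) ≤ 0 := Real.log_nonpos hg.le hg1
      have hq : 0 ≤ (t * d) ^ 2 * PP (t * H / (1 - (t * d) ^ 2)) :=
        mul_nonneg (sq_nonneg _) hP2
      apply div_nonneg _ (sq_nonneg t)
      nlinarith
  have hfin := hmono (Set.left_mem_Icc.2 h1sd) (Set.right_mem_Icc.2 h1sd) h1sd
  simp only [one_mul, div_one] at hfin
  have e1 : s / d * d = s := div_mul_cancel₀ s hd0.ne'
  have e2 : s / d * H = hh s := by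
    field_simp
    linarith
  rw [e1, e2, RR_hh hs] at hfin
  have hsq : 0 < 1 - s ^ 2 := by nlinarith [hs.1, hs.2]
  have e3 : RR (hh s / (1 - s ^ 2)) = 0 := by
    apply RR_zero
    rw [le_div_iff₀ hsq]
    have := hh_ge_quad (m := s) ⟨by linarith, hs.2.le⟩
    linarith
  rw [e3, mul_zero, sub_zero] at hfin
  have e4 : (2 * (Real.log 2 - hh s) + Rs s) / (s / d) = d * ath s := by
    unfold Rs
    field_simp
    ring
  rw [e4] at hfin
  rw [hh_zero]
  exact hfin

/-- task R6b -/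
theorem zero_bound_gen {α β d H s : ℝ} (hb : 0 ≤ β) (hba : β ≤ α)
    (hd : d ∈ Set.Ioo (0 : ℝ) 1) (hH : 0 < H) (hHd : H ≤ hh d)
    (hs : s ∈ Set.Ioo (0 : ℝ) 1) (hsH : hh s * d = s * H) :
    EEg α β 0 d H ≤ d * ath s := by
  have h0 := zero_bound hd hH hHd hs hsH
  have hd0 := hd.1
  have hd1 := hd.2
  have hg : 0 < 1 - d ^ 2 := by nlinarith
  have hGp0 : Gp α β 0 = 1 := by unfold Gp; ring
  have hGpd : Gbar (Gp α β) 0 d = (1 - d ^ 2) * (1 + α * d ^ 2 - β * d ^ 4) := by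
    unfold Gbar Gp
    ring
  have hge : 1 - d ^ 2 ≤ (1 - d ^ 2) * (1 + α * d ^ 2 - β * d ^ 4) := by
    have h1 : 0 ≤ α * d ^ 2 - β * d ^ 4 := by
      have h2 : β * d ^ 2 ≤ α * d ^ 2 := mul_le_mul_of_nonneg_right hba (sq_nonneg d)
      have h3 : β * d ^ 4 ≤ β * d ^ 2 := by
        apply mul_le_mul_of_nonneg_left _ hb
        nlinarith [sq_nonneg d]
      linarith
    nlinarith
  set g' := (1 - d ^ 2) * (1 + α * d ^ 2 - β * d ^ 4) with hg'
  have hg'0 : 0 < g' := hg.trans_le hge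
  have hxx : H / g' ≤ H / (1 - d ^ 2) := div_le_div_of_nonneg_left hH.le hg hge
  have hsupp := RR_supp (x := H / (1 - d ^ 2)) (y := H / g') (div_pos hH hg) (div_pos hH hg'0)
  have hX := XX_nonneg (H / (1 - d ^ 2))
  have hR := RR_nonneg (H / (1 - d ^ 2))
  have hRR : RR (H / (1 - d ^ 2)) ≤ RR (H / g') := by
    nlinarith [mul_nonneg hX (sub_nonneg.2 hxx)]
  have hmul : (1 - d ^ 2) * RR (H / (1 - d ^ 2)) ≤ g' * RR (H / g') :=
    mul_le_mul hge hRR hR hg'0.le
  unfold EEg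
  rw [hGp0, hGpd, zero_add, zero_sub, hh_neg, div_one, one_mul]
  have : hh 0 - (hh d + hh d) / 2 = hh 0 - hh d := by ring
  rw [this]
  linarith
end P322
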