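import Vale.Agent.P322.RayH.Mono
import Vale.Agent.P322.RayH.Zero
namespace P322
/-- `EEr` is `EEg/(1-m)` on the ray -/
theorem EEg_eq_EEr {α β m d H : ℝ} (hm : m < 1) :
    EEg α β m d H = (1 - m) * EEr α β (d / (1 - m)) (H / (1 - m)) m := by
  have h1 : (0 : ℝ) < 1 - m := by linarith
  have h1' : (1 : ℝ) - m ≠ 0 := h1.ne'
  have hσ : d / (1 - m) * (1 - m) = d := div_mul_cancel₀ d h1'
  have hG : Gp α β m = (1 - m) * Gam α β m := by unfold Gp Gam; ring
  have hB : Gbar (Gp α β) m d = (1 - m) * GamB α β (d / (1 - m)) m := by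
    unfold Gbar GamB
    rw [hσ]
    have e1 : Gp α β (m + d) = (1 - m) * ((1 - d / (1 - m)) * Gam α β (m + d)) := by
      have : (1 - m) * (1 - d / (1 - m)) = 1 - m - d := by
        rw [mul_sub, mul_one, mul_div_cancel₀ d h1']
      rw [← mul_assoc, this]
      unfold Gp Gam; ring
    have e2 : Gp α β (m - d) = (1 - m) * ((1 + d / (1 - m)) * Gam α β (m - d)) := by
      have : (1 - m) * (1 + d / (1 - m)) = 1 - m + d := by
        rw [mul_add, mul_one, mul_div_cancel₀ d h1']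
      rw [← mul_assoc, this]
      unfold Gp Gam; ring
    rw [e1, e2]; ring
  unfold EEg EEr
  rw [hσ, hG, hB, div_div, div_div]
  have e3 : (1 - m) * (2 * (hh m - (hh (m + d) + hh (m - d)) / 2) / (1 - m)) =
      2 * (hh m - (hh (m + d) + hh (m - d)) / 2) := mul_div_cancel₀ _ h1'
  linear_combination (-1 : ℝ) * e3

/-- task R7: the gluing. `hE1` is (E1) for the weight. -/
theorem ray_glue {α β m d H : ℝ} (hok : RayOK α β)
    (hE1 : ∀ μ δ : ℝ, 0 ≤ μ → 0 < δ → μ + δ < 1 →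
      2 * (hh μ - (hh (μ + δ) + hh (μ - δ)) / 2)
        + Gp α β μ * RR ((hh (μ + δ) + hh (μ - δ)) / 2 / Gp α β μ) ≤ jj (μ + δ) (μ - δ))
    (hm : 0 ≤ m) (hd : 0 < d) (hmd : m + d < 1) (hH : 0 < H)
    (hHb : H ≤ (hh (m + d) + hh (m - d)) / 2) :
    (∃ s ∈ Set.Ioo (0 : ℝ) 1, hh s * d = s * H ∧ EEg α β m d H ≤ d * ath s) ∨
    (∃ μ δ r : ℝ, 0 ≤ μ ∧ 0 < δ ∧ μ + δ < 1 ∧ 0 < r ∧ r ≤ 1 ∧ 1 - m = r * (1 - μ) ∧ d = r * δ ∧
      H = r * ((hh (μ + δ) + hh (μ - δ)) / 2) ∧ EEg α β m d H ≤ r * jj (μ + δ) (μ - δ)) := by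
  have hm1 : m < 1 := by linarith
  have h1 : (0 : ℝ) < 1 - m := by linarith
  have h1' : (1 : ℝ) - m ≠ 0 := h1.ne'
  obtain ⟨σ, hσdef⟩ : ∃ σ, σ = d / (1 - m) := ⟨_, rfl⟩
  obtain ⟨η, hηdef⟩ : ∃ η, η = H / (1 - m) := ⟨_, rfl⟩
  have hσ0 : 0 < σ := hσdef ▸ div_pos hd h1
  have hσ1 : σ < 1 := by
    rw [hσdef, div_lt_one h1]; linarith
  have hη0 : 0 < η := hηdef ▸ div_pos hH h1
  have hdσ : d = σ * (1 - m) := by rw [hσdef, div_mul_cancel₀ d h1']
  have hHη : H = η * (1 - m) := by rw [hηdef, div_mul_cancel₀ H h1']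
  have hanti := ray_antitone (η := η) hok ⟨hσ0, hσ1⟩ hη0
  have hmI : m ∈ Set.Ico (0 : ℝ) 1 := ⟨hm, hm1⟩
  have hE := EEg_eq_EEr (α := α) (β := β) (m := m) (d := d) (H := H) hm1
  rw [← hσdef, ← hηdef] at hE
  by_cases hcase : η ≤ hh σ
  · left
    obtain ⟨s, hs, hsH⟩ := exists_s hd hH
    refine ⟨s, hs, hsH, ?_⟩
    have h2 : EEr α β σ η m ≤ EEr α β σ η 0 := hanti ⟨le_rfl, zero_lt_one⟩ hmI hm
    have h3 := EEg_eq_EEr (α := α) (β := β) (m := 0) (d := σ) (H := η) zero_lt_one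
    simp only [sub_zero, div_one, one_mul] at h3
    have hsη : hh s * σ = s * η := by
      have : (hh s * σ - s * η) * (1 - m) = 0 := by
        have := hsH
        rw [hdσ, hHη] at this
        linear_combination this
      rcases mul_eq_zero.mp this with h | h
      · linarith
      · exact absurd h h1'
    have h4 := zero_bound_gen (α := α) (β := β) hok.b0 hok.ba ⟨hσ0, hσ1⟩ hη0 hcase hs hsη
    rw [hE]
    calc (1 - m) * EEr α β σ η m ≤ (1 - m) * EEr α β σ η 0 :=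
          mul_le_mul_of_nonneg_left h2 h1.le
      _ = (1 - m) * EEg α β 0 σ η := by rw [h3]
      _ ≤ (1 - m) * (σ * ath s) := mul_le_mul_of_nonneg_left h4 h1.le
      _ = d * ath s := by rw [hdσ]; ring
  · right
    push Not at hcase
    obtain ⟨F, hF⟩ : ∃ F : ℝ → ℝ, F = fun μ =>
        (hh (μ + σ * (1 - μ)) + hh (μ - σ * (1 - μ))) / 2 / (1 - μ) := ⟨_, rfl⟩
    have hFc : ContinuousOn F (Set.Icc 0 m) := by
      rw [hF]
      refine ContinuousOn.div ?_ (continuousOn_const.sub continuousOn_id) ?_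
      · exact (((hh_continuous.comp (continuous_id.add
          (continuous_const.mul (continuous_const.sub continuous_id)))).add
          (hh_continuous.comp (continuous_id.sub
          (continuous_const.mul (continuous_const.sub continuous_id))))).div_const 2).continuousOn
      · intro x hx
        have := hx.2
        show (1 : ℝ) - x ≠ 0
        linarith
    have hF0 : F 0 = hh σ := by
      rw [hF]
      simp only [sub_zero, mul_one, zero_add, zero_sub, hh_neg, div_one]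
      ring
    have hFm : η ≤ F m := by
      rw [hF]
      simp only
      rw [← hdσ, hηdef]
      gcongr
    obtain ⟨μ, hμ, hFμ⟩ := intermediate_value_Icc hm hFc ⟨hF0 ▸ hcase.le, hFm⟩
    have hμ1 : μ < 1 := by linarith [hμ.2]
    have h5 : (0 : ℝ) < 1 - μ := by linarith
    have h5' : (1 : ℝ) - μ ≠ 0 := h5.ne'
    have hFμ' : (hh (μ + σ * (1 - μ)) + hh (μ - σ * (1 - μ))) / 2 = η * (1 - μ) := by
      rw [hF] at hFμ
      simp only at hFμ
      rwa [div_eq_iff h5'] at hFμ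
    have hδ0 : 0 < σ * (1 - μ) := mul_pos hσ0 h5
    have hδ1 : μ + σ * (1 - μ) < 1 := by nlinarith
    have hr0 : 0 < (1 - m) / (1 - μ) := div_pos h1 h5
    refine ⟨μ, σ * (1 - μ), (1 - m) / (1 - μ), hμ.1, hδ0, hδ1, hr0, ?_, ?_, ?_, ?_, ?_⟩
    · rw [div_le_one h5]; linarith [hμ.2]
    · rw [div_mul_cancel₀ _ h5']
    · rw [hdσ]; field_simp
    · rw [hFμ', hHη]; field_simp
    · have h2 : EEr α β σ η m ≤ EEr α β σ η μ := hanti ⟨hμ.1, hμ1⟩ hmI hμ.2
      have h3 := EEg_eq_EEr (α := α) (β := β) (m := μ) (d := σ * (1 - μ)) (H := η * (1 - μ)) hμ1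
      rw [mul_div_cancel_right₀ _ h5', mul_div_cancel_right₀ _ h5'] at h3
      have h4 := hE1 μ (σ * (1 - μ)) hμ.1 hδ0 hδ1
      have h6 : 0 ≤ Gbar (Gp α β) μ (σ * (1 - μ)) *
          RR (η * (1 - μ) / Gbar (Gp α β) μ (σ * (1 - μ))) := by
        refine mul_nonneg ?_ (RR_nonneg _)
        have hgb : Gbar (Gp α β) μ (σ * (1 - μ)) = (1 - μ) * GamB α β σ μ := by
          unfold Gbar GamB Gp Gam; ring
        rw [hgb]
        exact (mul_pos h5 (hok.gamB_pos μ ⟨hμ.1, hμ1⟩ σ ⟨hσ0, hσ1⟩)).le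
      have h7 : EEg α β μ (σ * (1 - μ)) (η * (1 - μ)) ≤
          jj (μ + σ * (1 - μ)) (μ - σ * (1 - μ)) := by
        rw [hFμ'] at h4
        unfold EEg
        rw [hFμ']
        linarith
      rw [hE]
      calc (1 - m) * EEr α β σ η m ≤ (1 - m) * EEr α β σ η μ :=
            mul_le_mul_of_nonneg_left h2 h1.le
        _ = (1 - m) / (1 - μ) * ((1 - μ) * EEr α β σ η μ) := by field_simp
        _ = (1 - m) / (1 - μ) * EEg α β μ (σ * (1 - μ)) (η * (1 - μ)) := by rw [h3]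
        _ ≤ _ := mul_le_mul_of_nonneg_left h7 hr0.le
end P322
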