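import Vale.Agent.P322.RayH.PP
import Vale.Agent.P322.RayH.Delta
namespace P322

theorem raymono_Gam (α β m : ℝ) : HasDerivAt (Gam α β) (GamD α β m) m := by
  have h1 : HasDerivAt (fun m : ℝ => 1 + m) 1 m := (hasDerivAt_id' m).const_add 1
  have h2 : HasDerivAt (fun m : ℝ => 1 + α * m ^ 2 - β * m ^ 4)
      (α * (2 * m) - β * (4 * m ^ 3)) m := by
    have h3 := (((hasDerivAt_pow 2 m).const_mul α).const_add 1).sub
      ((hasDerivAt_pow 4 m).const_mul β)
    refine HasDerivAt.congr_deriv h3 ?_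
    norm_num
  refine HasDerivAt.congr_deriv (h1.mul h2) ?_
  unfold GamD
  ring

theorem raymono_GamB (α β σ m : ℝ) : HasDerivAt (GamB α β σ) (GamBD α β σ m) m := by
  have i1 : HasDerivAt (fun m : ℝ => m + σ * (1 - m)) (1 - σ) m := by
    have h := (hasDerivAt_id' m).add (((hasDerivAt_id' m).const_sub 1).const_mul σ)
    refine HasDerivAt.congr_deriv h ?_
    ring
  have i2 : HasDerivAt (fun m : ℝ => m - σ * (1 - m)) (1 + σ) m := by
    have h := (hasDerivAt_id' m).sub (((hasDerivAt_id' m).const_sub 1).const_mul σ)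
    refine HasDerivAt.congr_deriv h ?_
    ring
  have j1 : HasDerivAt (fun m : ℝ => Gam α β (m + σ * (1 - m)))
      (GamD α β (m + σ * (1 - m)) * (1 - σ)) m :=
    HasDerivAt.comp (h₂ := Gam α β) (h := fun m : ℝ => m + σ * (1 - m)) m
      (raymono_Gam α β (m + σ * (1 - m))) i1
  have j2 : HasDerivAt (fun m : ℝ => Gam α β (m - σ * (1 - m)))
      (GamD α β (m - σ * (1 - m)) * (1 + σ)) m :=
    HasDerivAt.comp (h₂ := Gam α β) (h := fun m : ℝ => m - σ * (1 - m)) m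
      (raymono_Gam α β (m - σ * (1 - m))) i2
  refine HasDerivAt.congr_deriv (((j1.const_mul (1 - σ)).add (j2.const_mul (1 + σ))).div_const 2) ?_
  unfold GamBD
  ring

theorem raymono_EEr {α β σ η : ℝ} (hok : RayOK α β) (hσ : σ ∈ Set.Ioo (0 : ℝ) 1) (hη : 0 < η)
    {m : ℝ} (hm : m ∈ Set.Ico (0 : ℝ) 1) :
    HasDerivAt (EEr α β σ η) (Real.log (1 - σ ^ 2 * ((1 - m) / (1 + m)) ^ 2) / (1 - m) ^ 2
      + GamD α β m * PP (η / Gam α β m) - GamBD α β σ m * PP (η / GamB α β σ m)) m := by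
  have p1 := hok.gamB_pos m hm σ hσ
  have p2 := p1.trans_le (hok.gamB_le m hm σ hσ)
  exact ((ray_delta_deriv hσ hm).add (hasDerivAt_perspG hη (raymono_Gam α β m) p2)).sub
    (hasDerivAt_perspG hη (raymono_GamB α β σ m) p1)

theorem raymono_nonpos {α β σ η : ℝ} (hok : RayOK α β) (hσ : σ ∈ Set.Ioo (0 : ℝ) 1) (hη : 0 < η)
    {m : ℝ} (hm : m ∈ Set.Ico (0 : ℝ) 1) :
    Real.log (1 - σ ^ 2 * ((1 - m) / (1 + m)) ^ 2) / (1 - m) ^ 2
      + GamD α β m * PP (η / Gam α β m) - GamBD α β σ m * PP (η / GamB α β σ m) ≤ 0 := by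
  have p1 := hok.gamB_pos m hm σ hσ
  have hle := hok.gamB_le m hm σ hσ
  have p2 := p1.trans_le hle
  have hD := hok.gamD_pos m hm
  have hDB := hok.gamBD_ge m hm σ hσ
  have h1 : GamD α β m * PP (η / GamB α β σ m) ≤ GamBD α β σ m * PP (η / GamB α β σ m) :=
    mul_le_mul_of_nonneg_right hDB (PP_nonneg (div_pos hη p1))
  have h2 := PP_sub_le (div_pos hη p2) (div_le_div_of_nonneg_left hη.le p1 hle)
  have e : η / GamB α β σ m / (η / Gam α β m) = Gam α β m / GamB α β σ m := by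
    field_simp
  rw [e] at h2
  have h3 := mul_le_mul_of_nonneg_left h2 hD.le
  have hm1 : 0 < (1 - m) ^ 2 := by
    have : 0 < 1 - m := by linarith [hm.2]
    positivity
  have h4 := hok.p2 m hm σ hσ
  have h5 : Real.log (1 - σ ^ 2 * ((1 - m) / (1 + m)) ^ 2) / (1 - m) ^ 2 ≤
      -(GamD α β m * (2 / 3 * Real.log (Gam α β m / GamB α β σ m))) := by
    rw [div_le_iff₀ hm1]
    linarith
  linarith

/-- task R5 -/
theorem ray_antitone {α β σ η : ℝ} (hok : RayOK α β) (hσ : σ ∈ Set.Ioo (0 : ℝ) 1) (hη : 0 < η) :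
    AntitoneOn (EEr α β σ η) (Set.Ico 0 1) := by
  refine antitoneOn_of_deriv_nonpos (convex_Ico 0 1) ?_ ?_ ?_
  · exact fun m hm => (raymono_EEr hok hσ hη hm).continuousAt.continuousWithinAt
  · rw [interior_Ico]
    exact fun m hm => (raymono_EEr hok hσ hη ⟨hm.1.le, hm.2⟩).differentiableAt.differentiableWithinAt
  · rw [interior_Ico]
    intro m hm
    rw [(raymono_EEr hok hσ hη ⟨hm.1.le, hm.2⟩).deriv]
    exact raymono_nonpos hok hσ hη ⟨hm.1.le, hm.2⟩
end P322
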