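import Vale.Agent.P322.RayH.Defs
namespace P322

theorem p2_mono {f f' : ℝ → ℝ} {a b : ℝ} (hab : a ≤ b)
    (h : ∀ x ∈ Set.Icc a b, HasDerivAt f (f' x) x) (h' : ∀ x ∈ Set.Icc a b, 0 ≤ f' x) :
    f a ≤ f b := by
  have hm : MonotoneOn f (Set.Icc a b) := by
    refine monotoneOn_of_deriv_nonneg (convex_Icc a b)
      (fun x hx => (h x hx).continuousAt.continuousWithinAt)
      (fun x hx => (h x (interior_subset hx)).differentiableAt.differentiableWithinAt)
      (fun x hx => ?_)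
    rw [(h x (interior_subset hx)).deriv]
    exact h' x (interior_subset hx)
  exact hm (Set.left_mem_Icc.mpr hab) (Set.right_mem_Icc.mpr hab) hab

theorem p2_anti {f f' : ℝ → ℝ} {a b : ℝ} (hab : a ≤ b)
    (h : ∀ x ∈ Set.Icc a b, HasDerivAt f (f' x) x) (h' : ∀ x ∈ Set.Icc a b, f' x ≤ 0) :
    f b ≤ f a := by
  have := p2_mono (f := fun x => -f x) (f' := fun x => -f' x) hab
    (fun x hx => (h x hx).neg) (fun x hx => by have := h' x hx; linarith)
  linarith

theorem p2_log_ub {t : ℝ} (ht : 0 ≤ t) : Real.log (1 + t) ≤ t * (6 + t) / (6 + 4 * t) := by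
  have h := p2_mono (f := fun x => x * (6 + x) / (6 + 4 * x) - Real.log (1 + x))
    (f' := fun x => ((1 * (6 + x) + x * 1) * (6 + 4 * x) - x * (6 + x) * 4) / (6 + 4 * x) ^ 2
      - 1 / (1 + x)) ht ?_ ?_
  · simp only [zero_mul, zero_div, add_zero, Real.log_one, sub_zero] at h
    linarith
  · intro x hx
    have hx0 := hx.1
    have e1 : HasDerivAt (fun x : ℝ => x * (6 + x)) (1 * (6 + x) + x * 1) x :=
      (hasDerivAt_id x).mul ((hasDerivAt_id x).const_add 6)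
    have e2 : HasDerivAt (fun x : ℝ => 6 + 4 * x) 4 x := by
      simpa using ((hasDerivAt_id x).const_mul 4).const_add 6
    have e3 : HasDerivAt (fun x : ℝ => Real.log (1 + x)) (1 / (1 + x)) x :=
      ((hasDerivAt_id x).const_add 1).log (by simp only [id]; linarith)
    exact (e1.div e2 (by linarith)).sub e3
  · intro x hx
    have hx0 := hx.1
    have h1 : (0 : ℝ) < 1 + x := by linarith
    have h2 : (0 : ℝ) < 6 + 4 * x := by linarith
    rw [div_sub_div _ _ (by positivity) (by positivity)]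
    apply div_nonneg _ (by positivity)
    nlinarith [pow_nonneg hx0 3]

theorem p2_log_lb {t : ℝ} (h0 : 0 ≤ t) (h1 : t < 1) :
    t + t ^ 2 / 2 + t ^ 3 / 3 + t ^ 4 / 4 + t ^ 5 / 5 ≤ -Real.log (1 - t) := by
  have hs := Real.hasSum_pow_div_log_of_abs_lt_one (x := t) (by rw [abs_of_nonneg h0]; exact h1)
  have h := sum_le_hasSum (Finset.range 5) (fun i _ => by positivity) hs
  simp only [Finset.sum_range_succ, Finset.sum_range_zero] at h
  norm_num at h
  linarith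

/-- the case `s = 1` -/
theorem p2_one {t : ℝ} (h0 : 0 < t) (h1 : t < 1) :
    2 / 3 * -Real.log (1 - t) ≤ (1 + t) ^ 2 / (4 * t ^ 2) * -Real.log (1 - t ^ 2) := by
  have hl := p2_log_lb h0.le h1
  have hu := p2_log_ub h0.le
  have hsplit : Real.log (1 - t ^ 2) = Real.log (1 - t) + Real.log (1 + t) := by
    rw [← Real.log_mul (by linarith) (by linarith)]
    congr 1; ring
  rw [hsplit]
  set l : ℝ := -Real.log (1 - t) with hld
  set u : ℝ := Real.log (1 + t) with hud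
  have hl' : Real.log (1 - t) = -l := by rw [hld]; ring
  rw [hl']
  have hD : 0 < 1 + 2 * t - 5 / 3 * t ^ 2 := by nlinarith
  have hkey : (1 + t) ^ 2 * u ≤ (1 + 2 * t - 5 / 3 * t ^ 2) * l := by
    have e1 : (1 + t) ^ 2 * u ≤ (1 + t) ^ 2 * (t * (6 + t) / (6 + 4 * t)) :=
      mul_le_mul_of_nonneg_left hu (by positivity)
    have e2 : (1 + 2 * t - 5 / 3 * t ^ 2) * (t + t ^ 2 / 2 + t ^ 3 / 3 + t ^ 4 / 4 + t ^ 5 / 5) ≤
        (1 + 2 * t - 5 / 3 * t ^ 2) * l := mul_le_mul_of_nonneg_left hl hD.le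
    refine e1.trans (le_trans ?_ e2)
    rw [← mul_div_assoc, div_le_iff₀ (by linarith)]
    have p1 : t ^ 2 ≤ 1 := by nlinarith
    have p5 : t ^ 5 ≤ 1 := pow_le_one₀ h0.le h1.le
    have p6 : t ^ 6 ≤ 1 := pow_le_one₀ h0.le h1.le
    have p3 : 0 ≤ t ^ 3 := by positivity
    have p4 : 0 ≤ t ^ 4 := by positivity
    have hq : 0 ≤ 6 - 11 / 6 * t ^ 2 + 6 / 5 * t ^ 3 + 43 / 90 * t ^ 4 - 31 / 15 * t ^ 5
        - 4 / 3 * t ^ 6 := by linarith
    have hq2 : 0 ≤ t ^ 2 * (6 - 11 / 6 * t ^ 2 + 6 / 5 * t ^ 3 + 43 / 90 * t ^ 4 - 31 / 15 * t ^ 5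
        - 4 / 3 * t ^ 6) := mul_nonneg (by positivity) hq
    have hid : (1 + 2 * t - 5 / 3 * t ^ 2) * (t + t ^ 2 / 2 + t ^ 3 / 3 + t ^ 4 / 4 + t ^ 5 / 5) *
        (6 + 4 * t) - (1 + t) ^ 2 * (t * (6 + t)) =
        t ^ 2 * (6 - 11 / 6 * t ^ 2 + 6 / 5 * t ^ 3 + 43 / 90 * t ^ 4 - 31 / 15 * t ^ 5
        - 4 / 3 * t ^ 6) := by ring
    linarith
  have e : (1 + t) ^ 2 / (4 * t ^ 2) * -(-l + u) = ((1 + t) ^ 2 * (l - u)) / (4 * t ^ 2) := by
    rw [div_mul_eq_mul_div]; congr 1; ring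
  rw [e, le_div_iff₀ (by positivity)]
  nlinarith

/-- task R3: the elementary inequality (P2) -/
theorem P2_elem {s t : ℝ} (hs : s ∈ Set.Ioo (0 : ℝ) 1) (ht0 : 0 < t) (ht1 : t ≤ 1) :
    2 / 3 * -Real.log (1 - s ^ 2 * t) ≤ (1 + t) ^ 2 / (4 * t ^ 2) * -Real.log (1 - s ^ 2 * t ^ 2) := by
  have hs0 := hs.1
  have hs1 := hs.2
  have hq0 : 0 < s ^ 2 := by positivity
  have hq1 : s ^ 2 < 1 := by nlinarith
  rcases eq_or_lt_of_le ht1 with rfl | ht1
  · have : 0 ≤ -Real.log (1 - s ^ 2) := by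
      have := Real.log_nonpos (x := 1 - s ^ 2) (by linarith) (by linarith)
      linarith
    norm_num
    linarith
  · set K : ℝ := (1 + t) ^ 2 / (4 * t ^ 2) with hK
    have hKt : K * t ^ 2 = (1 + t) ^ 2 / 4 := by rw [hK]; field_simp
    have hd : ∀ x ∈ Set.Icc (0 : ℝ) 1,
        HasDerivAt (fun q => K * -Real.log (1 - q * t ^ 2) - 2 / 3 * -Real.log (1 - q * t))
          (K * -(-(1 * t ^ 2) / (1 - x * t ^ 2)) - 2 / 3 * -(-(1 * t) / (1 - x * t))) x := by
      intro x hx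
      have a1 : 0 < 1 - x * t := by nlinarith [hx.1, hx.2]
      have a2 : 0 < 1 - x * t ^ 2 := by nlinarith [hx.1, hx.2, mul_pos ht0 ht0]
      have e1 : HasDerivAt (fun q : ℝ => 1 - q * t ^ 2) (-(1 * t ^ 2)) x := by
        simpa using ((hasDerivAt_id x).mul_const (t ^ 2)).const_sub 1
      have e2 : HasDerivAt (fun q : ℝ => 1 - q * t) (-(1 * t)) x := by
        simpa using ((hasDerivAt_id x).mul_const t).const_sub 1
      exact ((e1.log a2.ne').neg.const_mul K).sub ((e2.log a1.ne').neg.const_mul (2 / 3))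
    have hval : ∀ x ∈ Set.Icc (0 : ℝ) 1,
        K * -(-(1 * t ^ 2) / (1 - x * t ^ 2)) - 2 / 3 * -(-(1 * t) / (1 - x * t)) =
        ((1 + t) ^ 2 / 4 * (1 - x * t) - 2 / 3 * t * (1 - x * t ^ 2)) /
          ((1 - x * t ^ 2) * (1 - x * t)) := by
      intro x hx
      have a1 : 0 < 1 - x * t := by nlinarith [hx.1, hx.2]
      have a2 : 0 < 1 - x * t ^ 2 := by nlinarith [hx.1, hx.2, mul_pos ht0 ht0]
      have e : K * -(-(1 * t ^ 2) / (1 - x * t ^ 2)) - 2 / 3 * -(-(1 * t) / (1 - x * t)) =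
          K * t ^ 2 / (1 - x * t ^ 2) - 2 / 3 * t / (1 - x * t) := by ring
      rw [e, hKt, div_sub_div _ _ a2.ne' a1.ne']
      congr 1
      ring
    have hN : ∀ x y : ℝ, x ≤ y → (1 + t) ^ 2 / 4 * (1 - y * t) - 2 / 3 * t * (1 - y * t ^ 2) ≤
        (1 + t) ^ 2 / 4 * (1 - x * t) - 2 / 3 * t * (1 - x * t ^ 2) := by
      intro x y hxy
      have h1 : 2 / 3 * t ^ 2 ≤ (1 + t) ^ 2 / 4 := by nlinarith
      have h2 : 0 ≤ (y - x) * t := mul_nonneg (by linarith) ht0.le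
      nlinarith
    by_cases hc : 0 ≤ (1 + t) ^ 2 / 4 * (1 - s ^ 2 * t) - 2 / 3 * t * (1 - s ^ 2 * t ^ 2)
    · have h := p2_mono (a := 0) (b := s ^ 2)
        (f := fun q => K * -Real.log (1 - q * t ^ 2) - 2 / 3 * -Real.log (1 - q * t)) hq0.le
        (fun x hx => hd x ⟨hx.1, by linarith [hx.2]⟩) ?_
      · simp only [zero_mul, sub_zero, Real.log_one, neg_zero, mul_zero] at h
        linarith
      · intro x hx
        have hx' : x ∈ Set.Icc (0 : ℝ) 1 := ⟨hx.1, by linarith [hx.2]⟩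
        rw [hval x hx']
        have a1 : 0 < 1 - x * t := by nlinarith [hx'.1, hx'.2]
        have a2 : 0 < 1 - x * t ^ 2 := by nlinarith [hx'.1, hx'.2, mul_pos ht0 ht0]
        exact div_nonneg (hc.trans (hN _ _ hx.2)) (by positivity)
    · push Not at hc
      have h := p2_anti (a := s ^ 2) (b := 1)
        (f := fun q => K * -Real.log (1 - q * t ^ 2) - 2 / 3 * -Real.log (1 - q * t)) hq1.le
        (fun x hx => hd x ⟨by linarith [hx.1], hx.2⟩) ?_
      · simp only [one_mul] at h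
        have h1 := p2_one ht0 ht1
        rw [← hK] at h1
        linarith
      · intro x hx
        have hx' : x ∈ Set.Icc (0 : ℝ) 1 := ⟨by linarith [hx.1], hx.2⟩
        rw [hval x hx']
        have a1 : 0 < 1 - x * t := by nlinarith [hx'.1, hx'.2]
        have a2 : 0 < 1 - x * t ^ 2 := by nlinarith [hx'.1, hx'.2, mul_pos ht0 ht0]
        exact div_nonpos_of_nonpos_of_nonneg ((hN _ _ hx.1).trans hc.le) (by positivity)

end P322
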