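import Vale.Agent.P322.RayH.Defs
namespace P322
/-- task R1 -/
theorem PP_nonneg {x : ℝ} (hx : 0 < x) : 0 ≤ PP x :=
  add_nonneg (RR_nonneg x) (mul_nonneg hx.le (XX_nonneg x))

theorem PP_hh {s : ℝ} (hs : s ∈ Set.Ioo (0 : ℝ) 1) : PP (hh s) = EE s := by
  unfold PP EE
  rw [RR_hh hs, XX_hh hs]
  ring

theorem PP_zero {x : ℝ} (hx : Real.log 2 ≤ x) : PP x = 0 := by
  unfold PP
  rw [RR_zero hx, XX_zero hx]
  ring

theorem PP_continuousAt {x : ℝ} (hx : 0 < x) : ContinuousAt PP x :=
  (hasDerivAt_RR hx).continuousAt.add (continuousAt_id.mul (XX_continuousAt hx))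

theorem PP_sub_le_aux {x y : ℝ} (hx : 0 < x) (hxy : x ≤ y) (hy : y < Real.log 2) :
    PP x - PP y ≤ 2 / 3 * Real.log (y / x) := by
  obtain ⟨t, ht, htx⟩ := exists_hh hx (hxy.trans_lt hy)
  obtain ⟨s, hs, hsy⟩ := exists_hh (hx.trans_le hxy) hy
  have hst : s ≤ t := by
    by_contra hlt
    push Not at hlt
    have := hh_strictAntiOn ⟨ht.1.le, ht.2.le⟩ ⟨hs.1.le, hs.2.le⟩ hlt
    rw [htx, hsy] at this
    linarith
  have h := EE_sub_le hs ht hst
  rw [Real.log_div (hx.trans_le hxy).ne' hx.ne', ← htx, ← hsy, PP_hh hs, PP_hh ht]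
  exact h

theorem PP_sub_le {x y : ℝ} (hx : 0 < x) (hxy : x ≤ y) :
    PP x - PP y ≤ 2 / 3 * Real.log (y / x) := by
  have hlog2 : 0 < Real.log 2 := Real.log_pos one_lt_two
  by_cases hy : y < Real.log 2
  · exact PP_sub_le_aux hx hxy hy
  push Not at hy
  by_cases hx2 : x < Real.log 2
  · have hc : ContinuousAt (fun z => PP x - PP z) (Real.log 2) :=
      continuousAt_const.sub (PP_continuousAt hlog2)
    have hc2 : ContinuousAt (fun z => 2 / 3 * Real.log (z / x)) (Real.log 2) := by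
      refine continuousAt_const.mul (ContinuousAt.log ?_ (div_pos hlog2 hx).ne')
      exact continuousAt_id.div_const x
    have h1 := hc.tendsto.mono_left (nhdsWithin_le_nhds (s := Set.Iio (Real.log 2)))
    have h2 := hc2.tendsto.mono_left (nhdsWithin_le_nhds (s := Set.Iio (Real.log 2)))
    have h3 : PP x - PP (Real.log 2) ≤ 2 / 3 * Real.log (Real.log 2 / x) := by
      refine le_of_tendsto_of_tendsto h1 h2 ?_
      filter_upwards [Ioo_mem_nhdsLT hx2] with z hz
      exact PP_sub_le_aux hx hz.1.le hz.2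
    have h4 : Real.log (Real.log 2 / x) ≤ Real.log (y / x) := by
      apply Real.log_le_log (div_pos hlog2 hx)
      gcongr
    rw [PP_zero le_rfl] at h3
    rw [PP_zero hy]
    linarith
  · push Not at hx2
    rw [PP_zero hx2, PP_zero hy]
    have : 0 ≤ Real.log (y / x) := Real.log_nonneg (by rwa [le_div_iff₀ hx, one_mul])
    linarith

/-- derivative of the perspective along a moving weight -/
theorem hasDerivAt_perspG {f : ℝ → ℝ} {f' η t : ℝ} (hη : 0 < η) (hf : HasDerivAt f f' t)
    (hpos : 0 < f t) : HasDerivAt (fun t => f t * RR (η / f t)) (f' * PP (η / f t)) t := by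
  have h1 : HasDerivAt (fun t => η / f t) (-(η * f' / f t ^ 2)) t := by
    have := (hf.fun_inv hpos.ne').const_mul η
    refine this.congr_deriv ?_
    ring
  have h2 := (hasDerivAt_RR (div_pos hη hpos)).comp t h1
  have h3 := hf.mul h2
  refine h3.congr_deriv ?_
  simp only [Function.comp_apply]
  unfold PP
  field_simp
end P322
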